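import Vale.Agent.P232.Phase1.Cover

/-!
# P232 rigidity: the slack of the phase 1 cover

The tangents of the checker use upper bounds of `(36 π)^(1/3)` and of `π`, which leaves room.
-/

open MeasureTheory Set Filter
open scoped Real Topology

noncomputable section

namespace Vale.Agent.P232.Phase1.Cover

/-- The slack of the ball constant. -/
def ballSlack : ℝ := 24179920 / 5000000 - (36 * π) ^ ((1 : ℝ) / 3)

/-- The slack of the tube constant. -/
def tubeSlack : ℝ := (314159266 / 100000000 - π) / 65536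

/-- The slack at volume `V`. -/
def gap (V : ℝ) : ℝ := min (ballSlack * V ^ ((2 : ℝ) / 3)) tubeSlack

lemma ballSlack_pos : 0 < ballSlack := by
  refine sub_pos.2 ?_
  rw [show ((1 : ℝ) / 3) = ((3 : ℕ) : ℝ)⁻¹ by norm_num]
  refine (Real.rpow_inv_lt_iff_of_pos (by positivity) (by norm_num) (by norm_num)).2 ?_
  rw [Real.rpow_natCast]
  have := Real.pi_lt_d20
  norm_num
  linarith

lemma tubeSlack_pos : 0 < tubeSlack := by
  have := Real.pi_lt_d20
  unfold tubeSlack
  exact div_pos (by linarith) (by norm_num)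

lemma gap_pos {V : ℝ} (hV : 0 < V) : 0 < gap V :=
  lt_min (mul_pos ballSlack_pos (Real.rpow_pos_of_pos hV _)) tubeSlack_pos

lemma continuous_gap : Continuous gap :=
  ((Real.continuous_rpow_const (by norm_num)).const_mul _).min continuous_const

lemma tangent_gap {L : Leaf} (h : tangentB L = true) {V : ℝ} (h0 : 0 ≤ V) (h1 : V ≤ 1 / 2) :
    candidate V + gap V ≤ 2 * (toR L.al * V + toR L.be) := by
  simp only [tangentB, Bool.and_eq_true, decide_eq_true_eq] at h
  obtain ⟨hW, h⟩ := h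
  have hw : 0 < toR L.W := div_pos (Int.cast_pos.2 hW) (by norm_num)
  have hW' : (0 : ℝ) < L.W := Int.cast_pos.2 hW
  rw [candidate, min_eq_left (a := V) (by linarith)]
  cases hL : L.tube
  · simp only [hL, cond_false, Bool.and_eq_true, decide_eq_true_eq] at h
    have e1 : ((2 * 24179920 * unitS * unitS : ℤ) : ℝ) ≤ ((30000000 * L.al * L.W : ℤ) : ℝ) :=
      Int.cast_le.2 h.1
    have e2 : ((24179920 * L.W * L.W : ℤ) : ℝ) ≤ ((30000000 * unitS * L.be : ℤ) : ℝ) :=
      Int.cast_le.2 h.2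
    push_cast at e1 e2
    have f1 : (24179920 : ℝ) / 15000000 * (2 / toR L.W) ≤ 2 * toR L.al := by
      simp only [toR]
      rw [div_div_eq_mul_div, div_mul_div_comm, ← mul_div_assoc,
        div_le_div_iff₀ (by positivity) (by norm_num)]
      linarith
    have f2 : (24179920 : ℝ) / 15000000 * toR L.W ^ 2 ≤ 2 * toR L.be := by
      simp only [toR]
      rw [div_pow, div_mul_div_comm, ← mul_div_assoc,
        div_le_div_iff₀ (by positivity) (by norm_num)]
      linarith
    have f3 : (24179920 : ℝ) / 5000000 * V ^ ((2 : ℝ) / 3) ≤ 2 * (toR L.al * V + toR L.be) :=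
      calc (24179920 : ℝ) / 5000000 * V ^ ((2 : ℝ) / 3)
          ≤ 24179920 / 5000000 * ((2 * V / toR L.W + toR L.W ^ 2) / 3) :=
            mul_le_mul_of_nonneg_left (rpow_two_thirds_le h0 hw) (by norm_num)
        _ = 24179920 / 15000000 * (2 / toR L.W) * V + 24179920 / 15000000 * toR L.W ^ 2 := by ring
        _ ≤ 2 * toR L.al * V + 2 * toR L.be := add_le_add (mul_le_mul_of_nonneg_right f1 h0) f2
        _ = _ := by ring
    refine le_trans (add_le_add ((min_le_left _ _).trans (min_le_left _ _)) (min_le_left _ _)) ?_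
    rw [ballSlack, ← add_mul, add_sub_cancel]
    exact f3
  · simp only [hL, cond_true, Bool.and_eq_true, decide_eq_true_eq] at h
    have e1 : ((unitS * unitS : ℤ) : ℝ) ≤ ((2 * L.al * L.W : ℤ) : ℝ) := Int.cast_le.2 h.1
    have e2 : ((314159266 * L.W : ℤ) : ℝ) ≤ ((200000000 * L.be : ℤ) : ℝ) := Int.cast_le.2 h.2
    push_cast at e1 e2
    have f1 : 1 / (2 * toR L.W) ≤ toR L.al := by
      simp only [toR]
      rw [mul_div_assoc', one_div_div, div_le_div_iff₀ (by positivity) (by norm_num)]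
      linarith
    have f2 : 314159266 / 100000000 * toR L.W / 2 ≤ toR L.be := by
      simp only [toR]
      rw [mul_div_assoc', div_div, div_le_div_iff₀ (by norm_num) (by norm_num)]
      linarith
    have f3 : √(π * V) ≤ 1 / (2 * toR L.W) * V + π * toR L.W / 2 := by
      refine Real.sqrt_le_iff.2 ⟨by positivity, ?_⟩
      have e : (1 / (2 * toR L.W) * V + π * toR L.W / 2) ^ 2 =
          π * V + (1 / (2 * toR L.W) * V - π * toR L.W / 2) ^ 2 := by field_simp; ring
      rw [e]
      nlinarith [sq_nonneg (1 / (2 * toR L.W) * V - π * toR L.W / 2)]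
    have f4 : tubeSlack ≤ (314159266 / 100000000 - π) * toR L.W := by
      rw [tubeSlack, toR, mul_div_assoc']
      refine div_le_div_of_nonneg_right (le_mul_of_one_le_right ?_ ?_) (by norm_num)
      · linarith [Real.pi_lt_d20]
      · exact_mod_cast hW
    refine le_trans (add_le_add ((min_le_left _ _).trans (min_le_right _ _)) (min_le_right _ _)) ?_
    have := mul_le_mul_of_nonneg_right f1 h0
    linarith

theorem tree_gap : ∀ (T : Tree) (B : Box), treeB T B = true → ∀ {V a b p : ℝ},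
    Setting a b V p → B.Mem V a b → V ≤ 1 / 2 → candidate V + gap V ≤ 2 * p
  | .empty, B, h, V, a, b, p, hS, hm, _ => by
    obtain ⟨⟨hv0, hv1⟩, ⟨ha0, _⟩, ⟨_, hb1⟩⟩ := hm
    simp only [treeB, Bool.or_eq_true, decide_eq_true_eq] at h
    rcases h with h | h
    · exact absurd (toR_lt.2 h) (not_lt.2 (ha0.trans (hS.a_le.trans hv1)))
    · exact absurd (toR_lt.2 h) (not_lt.2 ((hv0.trans hS.le_b).trans hb1))
  | .leaf _, _, h, V, _, _, _, hS, hm, hV => by
    obtain ⟨ht, hl⟩ := leaf_lin h hS hm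
    have := tangent_gap ht (hS.a_nonneg.trans hS.a_le) hV
    linarith
  | .split ax m l r, B, h, V, a, b, p, hS, hm, hV => by
    obtain ⟨hv, ha, hb⟩ := hm
    simp only [treeB] at h
    split_ifs at h <;> simp only [Bool.and_eq_true] at h
    · rcases le_total V (toR m) with e | e
      · exact tree_gap l _ h.1 hS ⟨⟨hv.1, e⟩, ha, hb⟩ hV
      · exact tree_gap r _ h.2 hS ⟨⟨e, hv.2⟩, ha, hb⟩ hV
    · rcases le_total a (toR m) with e | e
      · exact tree_gap l _ h.1 hS ⟨hv, ⟨ha.1, e⟩, hb⟩ hV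
      · exact tree_gap r _ h.2 hS ⟨hv, ⟨e, ha.2⟩, hb⟩ hV
    · rcases le_total b (toR m) with e | e
      · exact tree_gap l _ h.1 hS ⟨hv, ha, hb.1, e⟩ hV
      · exact tree_gap r _ h.2 hS ⟨hv, ha, e, hb.2⟩ hV

/-- Case C with slack. -/
theorem cover_gap {a b V p : ℝ} (hS : Setting a b V p) (h0 : 0 < V) (hV : V ≤ 13 / 50)
    (hb : 1 / π ≤ b) (h : 1 / 250 ≤ a ∨ 1 / 2 ≤ b ∨ 17 / 100 ≤ V) :
    candidate V + gap V ≤ 2 * p := by
  have hV2 : V ≤ 1 / 2 := by linarith
  have hq : toR 20860 ≤ b := q_lo.trans hb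
  have hb1 : b ≤ toR 65536 := hS.b_le_one.trans_eq toR_unit.symm
  have hv : V ≤ toR 17040 := hV.trans (by norm_num [toR])
  have hv0 : toR 0 ≤ V := by simpa [toR] using h0.le
  have ha0 : toR 0 ≤ a := by simpa [toR] using hS.a_nonneg
  by_cases ha : toR 262 ≤ a
  · exact tree_gap _ _ root1_ok hS ⟨⟨hv0, hv⟩, ⟨ha, hS.a_le.trans hv⟩, hq, hb1⟩ hV2
  have ha' : a ≤ toR 263 := (le_of_not_ge ha).trans (toR_le.2 (by norm_num))
  have hnot : ¬ (1 : ℝ) / 250 ≤ a := fun h' => ha (le_trans (by norm_num [toR]) h')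
  by_cases hV17 : 17 / 100 ≤ V
  · exact tree_gap _ _ root3_ok hS
      ⟨⟨le_trans (by norm_num [toR]) hV17, hv⟩, ⟨ha0, ha'⟩, hq, hb1⟩ hV2
  have hbh : (1 : ℝ) / 2 ≤ b := by
    rcases h with h | h | h
    · exact absurd h hnot
    · exact h
    · exact absurd h hV17
  exact tree_gap _ _ root2_ok hS
    ⟨⟨hv0, (le_of_not_ge hV17).trans (by norm_num [toR])⟩, ⟨ha0, ha'⟩,
      le_trans (by norm_num [toR]) hbh, hb1⟩ hV2

end Vale.Agent.P232.Phase1.Cover
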