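import Vale.Agent.P232.BandFree.Patch
import Vale.Agent.P232.BandFree.Candidate
import Vale.Agent.P232.Rigid.Spec

/-!
# P232 rigidity: equality in the closed bounds of cases A and B
-/

open MeasureTheory Set Filter
open scoped Real Topology

noncomputable section

namespace Vale.Agent.P232.Rigid

open BandFree (jrel)

/-- The closed bound of cases A (`m = 0`) and B (`m = π/2`). -/
def ballForm (m a b V : ℝ) : ℝ :=
  Real.sqrt π * (V + Real.sqrt a * Real.sqrt b) / (Real.sqrt a + Real.sqrt b) +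
    2 / 3 * (Real.sqrt b - Real.sqrt a) ^ 2 - m * a

theorem continuousAt_ballForm (m : ℝ) {a b V : ℝ} (hb : 0 < b) :
    ContinuousAt (fun q : ℝ × ℝ × ℝ => ballForm m q.1 q.2.1 q.2.2) (a, b, V) := by
  unfold ballForm
  have hS : Real.sqrt a + Real.sqrt b ≠ 0 :=
    (add_pos_of_nonneg_of_pos (Real.sqrt_nonneg a) (Real.sqrt_pos.2 hb)).ne'
  fun_prop (disch := exact hS)

/-- The ball gives the least perimeter as soon as `jrel³` reaches the ball value. -/
theorem ball_attains {V : ℝ} (h0 : 0 < V) (h2 : V ≤ 1 / 2)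
    (h : 9 * π / 2 * V ^ 2 ≤ jrel V ^ 3) : shapePerimeter 3 V = candidate V := by
  have hc : candidate V = 2 * jrel V := BandFree.candidate_eq_two_mul_jrel V
  have hsp : shapePerimeter 3 V = (36 * π) ^ ((1 : ℝ) / 3) * V ^ ((2 : ℝ) / 3) := by
    simp [shapePerimeter]
  refine le_antisymm ?_ ?_
  · have hj : 0 ≤ jrel V := by
      unfold BandFree.jrel
      have : 0 ≤ min V (1 - V) := le_min h0.le (by linarith)
      exact le_min (by positivity) (le_min (Real.sqrt_nonneg _) zero_le_one)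
    rw [hc, hsp]
    refine (pow_le_pow_iff_left₀ (n := 3) (by positivity) (by positivity) (by norm_num)).1 ?_
    rw [mul_pow, mul_pow, ← Real.rpow_natCast ((36 * π) ^ _), ← Real.rpow_natCast (V ^ _),
      ← Real.rpow_mul (by positivity), ← Real.rpow_mul h0.le]
    norm_num
    linarith
  · rw [hsp, candidate, min_eq_left (a := V) (by linarith)]
    exact (min_le_left _ _).trans (min_le_left _ _)

/-- Case A beyond `x + y = 3√π/8`: the tube. -/
theorem formA_tube {x y V : ℝ} (hV0 : 0 < V) (hV2 : V ≤ 1 / 2) (hS : 0 < x + y)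
    (hq : Real.sqrt π / (x + y) - 8 / 3 < 0)
    (h : Real.sqrt π * (V + x * y) / (x + y) + 2 / 3 * (y - x) ^ 2 ≤ jrel V) :
    x = y ∧ shapePerimeter 2 V = candidate V := by
  set r := Real.sqrt π
  set S := x + y with hSdef
  set q := r / S - 8 / 3 with hqdef
  have hr0 : 0 ≤ r := Real.sqrt_nonneg _
  have hj : jrel V ≤ Real.sqrt (π * V) := BandFree.jrel_le_tube hV2 le_rfl
  have hsV : Real.sqrt (π * V) = r * Real.sqrt V := Real.sqrt_mul Real.pi_pos.le V
  have hv := Real.sq_sqrt hV0.le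
  have e2 : r * (V + x * y) / S + 2 / 3 * (y - x) ^ 2 =
      r * Real.sqrt V + r * (2 * Real.sqrt V - S) ^ 2 / (4 * S) + (-q) * ((y - x) ^ 2 / 4) := by
    have hne : x + y ≠ 0 := hS.ne'
    rw [hqdef, hSdef]; field_simp
    linear_combination (-12 * r) * hv
  rw [e2] at h
  have t1 : 0 ≤ r * (2 * Real.sqrt V - S) ^ 2 / (4 * S) :=
    div_nonneg (mul_nonneg hr0 (sq_nonneg _)) (by linarith)
  have t2 : 0 ≤ (-q) * ((y - x) ^ 2 / 4) :=
    mul_nonneg (by linarith) (div_nonneg (sq_nonneg _) (by norm_num))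
  have z2 : (-q) * ((y - x) ^ 2 / 4) = 0 := by linarith
  have hxy : x = y := by
    have h4 := (mul_eq_zero.1 z2).resolve_left (by linarith)
    have := pow_eq_zero_iff (n := 2) (by norm_num) |>.1 (by linarith : (y - x) ^ 2 = 0)
    linarith
  refine ⟨hxy, ?_⟩
  rw [BandFree.candidate_eq_two_mul_jrel, show jrel V = Real.sqrt (π * V) from
    le_antisymm hj (by linarith)]
  simp [shapePerimeter]

/-- Case A: equality only at the ball or at the tube. -/
theorem formA_le {a b V : ℝ} (hV0 : 0 < V) (hV : V ≤ 13 / 50) (ha : 0 ≤ a) (haV : a ≤ V)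
    (hVb : V ≤ b) (h : ballForm 0 a b V ≤ jrel V) :
    (a = 0 ∧ shapePerimeter 3 V = candidate V) ∨
      (a = V ∧ b = V ∧ shapePerimeter 2 V = candidate V) := by
  have hb0 : 0 < b := hV0.trans_le hVb
  have hV2 : V ≤ 1 / 2 := by linarith
  simp only [ballForm, zero_mul, sub_zero] at h
  set x := Real.sqrt a
  set y := Real.sqrt b
  have hxa : x ^ 2 = a := Real.sq_sqrt ha
  have hyb : y ^ 2 = b := Real.sq_sqrt hb0.le
  have hx0 : 0 ≤ x := Real.sqrt_nonneg _
  have hy0 : 0 < y := Real.sqrt_pos.2 hb0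
  set S := x + y
  have hS : 0 < S := add_pos_of_nonneg_of_pos hx0 hy0
  set r := Real.sqrt π
  have hr : r ^ 2 = π := Real.sq_sqrt Real.pi_pos.le
  have hr0 : 0 < r := Real.sqrt_pos.2 Real.pi_pos
  set q := r / S - 8 / 3
  set X := r * V / (2 * S)
  set Y := 2 / 3 * S ^ 2
  have hX0 : 0 < X := by positivity
  have hY0 : 0 < Y := by positivity
  have hball : 9 * π / 2 * V ^ 2 = 27 * X ^ 2 * Y := by
    simp only [X, Y]; rw [← hr]; field_simp; ring
  have e : r * (V + x * y) / S + 2 / 3 * (y - x) ^ 2 = 2 * X + Y + x * y * q := by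
    simp only [X, Y, q, S]; field_simp; ring
  rw [e] at h
  have hcube : 27 * X ^ 2 * Y ≤ (2 * X + Y) ^ 3 := by
    nlinarith [mul_nonneg (sq_nonneg (X - Y)) (add_nonneg (mul_nonneg (by norm_num : (0:ℝ) ≤ 8) hX0.le) hY0.le)]
  rcases le_or_gt 0 q with hq | hq
  · have hxy : 0 ≤ x * y * q := mul_nonneg (mul_nonneg hx0 hy0.le) hq
    have hj : 2 * X + Y ≤ jrel V := by linarith
    have hball' : 9 * π / 2 * V ^ 2 ≤ jrel V ^ 3 :=
      hball.trans_le (hcube.trans (pow_le_pow_left₀ (by positivity) hj 3))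
    have hj' : jrel V ≤ 2 * X + Y :=
      BandFree.jrel_le_ball hV0.le hV2 (by positivity) (hball.trans_le hcube)
    have hzero : x * y * q = 0 := by linarith
    rcases mul_eq_zero.1 hzero with h' | hq0
    · refine Or.inl ⟨?_, ball_attains hV0 hV2 hball'⟩
      have : x = 0 := (mul_eq_zero.1 h').resolve_right hy0.ne'
      rw [← hxa, this]; norm_num
    · exfalso
      have hj3 : jrel V ^ 3 ≤ 27 * X ^ 2 * Y := by
        rw [← hball]
        have hjb : jrel V ≤ (9 * π / 2) ^ ((1 : ℝ) / 3) * V ^ ((2 : ℝ) / 3) := by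
          refine (min_le_left _ _).trans ?_
          rw [min_eq_left (a := V) (by linarith)]
        refine (pow_le_pow_left₀ (le_trans (by positivity) hj) hjb 3).trans_eq ?_
        rw [mul_pow, ← Real.rpow_natCast (((9 * π / 2)) ^ _), ← Real.rpow_natCast (V ^ _),
          ← Real.rpow_mul (by positivity), ← Real.rpow_mul hV0.le]
        norm_num
      have hXY : X = Y := by
        have h1 : (X - Y) ^ 2 * (8 * X + Y) ≤ 0 := by
          nlinarith [pow_le_pow_left₀ (by positivity) hj 3]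
        have h2 : (X - Y) ^ 2 = 0 :=
          le_antisymm (nonpos_of_mul_nonpos_left h1 (by positivity)) (sq_nonneg _)
        have := pow_eq_zero_iff (n := 2) (by norm_num) |>.1 h2
        linarith
      have hrS : r = 8 / 3 * S := by
        have : r / S = 8 / 3 := by linarith [show q = r / S - 8 / 3 from rfl]
        rwa [div_eq_iff hS.ne'] at this
      -- here `V = 9π/128`, above the ball range
      have hS2 : S ^ 2 = 9 * π / 64 := by rw [← hr, hrS]; ring
      have hVval : V = 9 * π / 128 := by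
        have hY' : X = 4 / 3 * V := by simp only [X]; rw [hrS]; field_simp; ring
        have : Y = 3 * π / 32 := by simp only [Y]; rw [hS2]; ring
        linarith
      have hj2 : jrel V ^ 2 ≤ π * V := by
        have h3 : jrel V ≤ Real.sqrt (π * V) := BandFree.jrel_le_tube hV2 le_rfl
        refine (pow_le_pow_left₀ (le_trans (by positivity) hj) h3 2).trans_eq ?_
        rw [Real.sq_sqrt (by positivity)]
      have h6 : (9 * π / 2 * V ^ 2) ^ 2 ≤ (π * V) ^ 3 := by
        refine (pow_le_pow_left₀ (by positivity) hball' 2).trans ?_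
        rw [← pow_mul, show jrel V ^ (3 * 2) = (jrel V ^ 2) ^ 3 by ring]
        exact pow_le_pow_left₀ (sq_nonneg _) hj2 3
      have hpos : 0 < π ^ 2 * V ^ 3 := by positivity
      have h81 : 81 / 4 * V ≤ π := le_of_mul_le_mul_left
        (by nlinarith [h6] : π ^ 2 * V ^ 3 * (81 / 4 * V) ≤ π ^ 2 * V ^ 3 * π) hpos
      rw [hVval] at h81
      linarith [Real.pi_pos]
  · obtain ⟨hxy, hsp⟩ := formA_tube (x := x) (y := y) hV0 hV2 hS hq (e.trans_le h)
    have hab : a = b := by rw [← hxa, ← hyb, hxy]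
    exact Or.inr ⟨le_antisymm haV (hab ▸ hVb), le_antisymm (hab ▸ haV) hVb, hsp⟩

/-- Away from the ball, the bound of case B at `V = 31/200`. -/
theorem formB_key {x y r : ℝ} (hx : 0 ≤ x) (hx1 : x ≤ 633 / 10000) (hy1 : y ≤ 708 / 1000)
    (hy : 0 ≤ y) (hr1 : 17724 / 10000 ≤ r) (hS1 : 62 / 100 ≤ x + y) :
    6979 / 10000 ≤
      r * (31 / 200 + x * y) / (x + y) + 2 / 3 * (y - x) ^ 2 - π / 2 * x ^ 2 := by
  have hπ' := Real.pi_lt_d4
  set S := x + y
  have hS : 0 < S := by linarith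
  have hS2 : S ≤ 772 / 1000 := by linarith
  rw [le_sub_iff_add_le, div_add' _ _ _ hS.ne', le_div_iff₀ hS]
  have h1 : (17724 / 10000) * (31 / 200 + x * y) ≤ r * (31 / 200 + x * y) :=
    mul_le_mul_of_nonneg_right hr1 (by positivity)
  have h2 : π / 2 * x ^ 2 * S ≤ 15708 / 10000 * x ^ 2 * S :=
    mul_le_mul_of_nonneg_right (mul_le_mul_of_nonneg_right
      (by linarith : π / 2 ≤ 15708 / 10000) (sq_nonneg x)) hS.le
  simp only [S] at *
  nlinarith [mul_nonneg hx (sub_nonneg.2 hx1), mul_nonneg (sub_nonneg.2 hS1) hx,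
    mul_nonneg (sub_nonneg.2 hS1) (sub_nonneg.2 hx1),
    mul_nonneg (sub_nonneg.2 hS1) (sq_nonneg (x + y - 62 / 100))]

/-- Case B away from the ball: strict. -/
theorem formB_far {x y r V : ℝ} (hV0 : 0 ≤ V) (hV : V ≤ 17 / 100) (hx : 0 ≤ x)
    (hx1 : x ≤ 633 / 10000) (hy : 0 ≤ y) (hy1 : y ≤ 708 / 1000) (hr1 : 17724 / 10000 ≤ r)
    (hr2 : r ≤ 17725 / 10000) (hS1 : 62 / 100 ≤ x + y) :
    jrel V < r * (V + x * y) / (x + y) + 2 / 3 * (y - x) ^ 2 - π / 2 * x ^ 2 := by
  have hπ' := Real.pi_lt_d4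
  have hV2 : V ≤ 1 / 2 := by linarith
  set S := x + y
  have hS : 0 < S := by linarith
  have hS2 : S ≤ 772 / 1000 := by linarith
  have key := formB_key hx hx1 hy1 hy hr1 hS1
  have eV : r * (V + x * y) / S =
      r * (31 / 200 + x * y) / S + (V - 31 / 200) * (r / S) := by ring
  rcases le_total V (31 / 200) with hV3 | hV3
  · have hjX : jrel V ≤ 2328 / 10000 + 3 * V := by
      refine BandFree.jrel_le_ball hV0 hV2 (by positivity) ?_
      nlinarith [mul_nonneg (sq_nonneg (3 * V / 2 - 2328 / 10000))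
        (add_nonneg (mul_nonneg (by norm_num : (0 : ℝ) ≤ 8) (div_nonneg (mul_nonneg
          (by norm_num : (0 : ℝ) ≤ 3) hV0) zero_le_two)) (by norm_num : (0 : ℝ) ≤ 2328 / 10000)),
        mul_le_mul_of_nonneg_right hπ'.le (sq_nonneg V)]
    have hs : r / S ≤ 3 := by rw [div_le_iff₀ hS]; linarith
    nlinarith [mul_le_mul_of_nonneg_left hs (sub_nonneg.2 hV3)]
  · have hjX : jrel V ≤ 698 / 2000 + 31416 / 13960 * V := by
      refine BandFree.jrel_le_tube hV2 ?_
      rw [Real.sqrt_le_left (by positivity)]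
      nlinarith [mul_le_mul_of_nonneg_left hπ'.le hV0,
        sq_nonneg (698 / 2000 - 31416 / 13960 * V)]
    have hs : 31416 / 13960 ≤ r / S := by rw [le_div_iff₀ hS]; nlinarith
    nlinarith [mul_le_mul_of_nonneg_left hs (sub_nonneg.2 hV3)]


/-- Case B: equality only at the ball. -/
theorem formB_le {a b V : ℝ} (hV0 : 0 < V) (hV : V ≤ 17 / 100) (ha : 0 ≤ a) (ha1 : a ≤ 1 / 250)
    (hb : 1 / π ≤ b) (hb1 : b ≤ 1 / 2) (h : ballForm (π / 2) a b V ≤ jrel V) :
    a = 0 ∧ shapePerimeter 3 V = candidate V := by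
  have hπ := Real.pi_gt_d4
  have hπ' := Real.pi_lt_d4
  have hb' : 3183 / 10000 ≤ b :=
    le_trans (by rw [le_div_iff₀ Real.pi_pos]; linarith) hb
  have hV2 : V ≤ 1 / 2 := by linarith
  simp only [ballForm] at h
  set x := Real.sqrt a
  set y := Real.sqrt b
  have hxa : x ^ 2 = a := Real.sq_sqrt ha
  rw [← hxa] at h
  have hx : 0 ≤ x := Real.sqrt_nonneg _
  have hy : 564 / 1000 ≤ y := Real.le_sqrt_of_sq_le (by linarith)
  have hy1 : y ≤ 708 / 1000 := (Real.sqrt_le_left (by norm_num)).2 (by linarith)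
  have hx1 : x ≤ 633 / 10000 := (Real.sqrt_le_left (by norm_num)).2 (by linarith)
  set r := Real.sqrt π
  have hr : r ^ 2 = π := Real.sq_sqrt Real.pi_pos.le
  have hr0 : 0 ≤ r := Real.sqrt_nonneg _
  have hr1 : 17724 / 10000 ≤ r := by nlinarith
  have hr2 : r ≤ 17725 / 10000 := by nlinarith
  set S := x + y
  have hS : 0 < S := by linarith
  set X := r * V / (2 * S)
  set Y := 2 / 3 * S ^ 2
  have e : r * (V + x * y) / S + 2 / 3 * (y - x) ^ 2 = 2 * X + Y + x * y * (r / S - 8 / 3) := by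
    simp only [X, Y, S]; field_simp; ring
  have hX0 : 0 ≤ X := by positivity
  have hball : 9 * π / 2 * V ^ 2 = 27 * X ^ 2 * Y := by
    simp only [X, Y]; rw [← hr]; field_simp; ring
  have hcube : 27 * X ^ 2 * Y ≤ (2 * X + Y) ^ 3 := by
    nlinarith [mul_nonneg (sq_nonneg (X - Y)) (add_nonneg (mul_nonneg (by norm_num : (0:ℝ) ≤ 8) hX0) (show (0:ℝ) ≤ Y by positivity))]
  rcases le_total S (62 / 100) with hS1 | hS1
  · rw [e] at h
    have hq : 19 / 100 ≤ r / S - 8 / 3 := by
      rw [le_sub_iff_add_le, le_div_iff₀ hS]; nlinarith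
    have h2 : x * y * (19 / 100) ≤ x * y * (r / S - 8 / 3) :=
      mul_le_mul_of_nonneg_left hq (by positivity)
    have h3 : x * (564 / 1000 * (19 / 100) - π / 2 * (633 / 10000)) ≤
        x * y * (19 / 100) - π / 2 * x ^ 2 := by
      nlinarith [mul_le_mul_of_nonneg_left hy hx,
        mul_le_mul_of_nonneg_left hx1 (mul_nonneg (by positivity : (0:ℝ) ≤ π / 2) hx)]
    have hc : (0 : ℝ) < 564 / 1000 * (19 / 100) - π / 2 * (633 / 10000) := by linarith
    have hj' : jrel V ≤ 2 * X + Y :=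
      BandFree.jrel_le_ball hV0.le hV2 (by positivity) (hball.trans_le hcube)
    have hx00 : x = 0 :=
      le_antisymm (nonpos_of_mul_nonpos_left (by linarith) hc) hx
    rw [hx00] at h
    simp only [zero_mul, mul_zero, add_zero, ne_eq, OfNat.ofNat_ne_zero, not_false_eq_true,
      zero_pow, sub_zero] at h
    refine ⟨by rw [← hxa, hx00]; norm_num, ball_attains hV0 hV2 ?_⟩
    exact hball.trans_le (hcube.trans (pow_le_pow_left₀ (by positivity) h 3))
  · have := formB_far hV0.le hV hx hx1 (by linarith) hy1 hr1 hr2 hS1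
    linarith

end Vale.Agent.P232.Rigid
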